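import Mathlib
import Vale.Agent.P037.Main

namespace Vale.Agent.Results.P037.OrderedRemovalFails

open Vale.Agent.P037

/-- The polynomial ordered binary matrix-removal conjecture is false. -/
theorem result :
    ∃ (k : ℕ) (H : Fin k → Fin k → Bool),
      (∀ n : ℕ, ∃ B : Fin n → Fin n → Bool, copyCount H B = 0) ∧
      (∃ K : ℝ, 0 < K ∧ ∀ L : ℕ, ∃ (n : ℕ) (A : Fin n → Fin n → Bool), 1 ≤ n ∧
        IsFar H A (1 / (K * ((L : ℝ) + 1) ^ 4)) ∧
        (copyCount H A : ℝ) * 2 ^ L ≤ (n : ℝ) ^ (2 * k)) ∧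
      (∀ c C : ℝ, 0 < c → 0 < C →
        ∃ (n : ℕ) (ε : ℝ) (A : Fin n → Fin n → Bool), 1 ≤ n ∧ 0 < ε ∧ ε < 1 ∧
          IsFar H A ε ∧ (copyCount H A : ℝ) < c * ε ^ C * (n : ℝ) ^ (2 * k)) := by
  refine ⟨size, pattern, exists_free, ⟨(farConst : ℝ), ?_, fun L => ⟨dim L, host L, ?_,
    host_far L, ?_⟩⟩, fun c C hc _ => not_polynomial c C hc⟩
  · have := farConst_ge_two
    exact_mod_cast (by omega : 0 < farConst)
  · exact Nat.mul_pos (by have := blow_ge_two L; omega) (by positivity)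
  · exact_mod_cast copyCount_host_le L

end Vale.Agent.Results.P037.OrderedRemovalFails
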